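import Vale.Agent.P284.H402.T.LimAtT
import Vale.Agent.P284.H501.T.UniT
import Vale.Agent.P284.H213.T3.Asm
import Vale.Agent.P284.H837.Sp
import Vale.Agent.P284.H15.T.LimF
import Vale.Agent.P284.H812.NSF18
import Vale.Agent.P284.H174.AlbD
import Vale.Agent.P284.H174.EtSp
import Vale.Agent.P284.H224.Sp
import Vale.Agent.P284.H136.Line2

/-!
# P284 (helper402), theorem T3 for special projective manifolds
-/

noncomputable section

namespace Vale.Agent.P284.H402.T3

open Vale.Agent.P284

/-- **the limit** for kernels without property (T), all `q` -/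
theorem limNT (q : ℕ) : H501.T.LimNT q :=
  H501.T.limNT_all H15.T.limK (fun _ hq => H402.T.limAtT hq) q

theorem coreT_sp : H213.T3.CoreT H174.fspC :=
  H501.T.coreT_sp_NT limNT H812.NSF.ns2 H837.spStmt

/-- **T3** for special projective manifolds, simply connected coverings -/
theorem mainSCN_sp : H213.T3.MainSCN H174.fspC :=
  H213.T3.mainSCN_of H174.etSt_fsp (H174.albSp_of H837.spStmt)
    (H224.mfSp_of H837.spStmt H136.Rat.lineStmt) coreT_sp

/-- **T3** for special projective manifolds -/
theorem mainPiN_sp : H213.T3.MainPiN H174.fspC := H213.T3.mainPiN_of mainSCN_sp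

end Vale.Agent.P284.H402.T3
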